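import Vale.Agent.P354CB.Ez

/-!
The key lemma: a common development whose graph is not closed can be extended.
-/

open Set Filter Topology Metric

namespace Vale.Agent.P354CB19

open Vale.Agent.P354n
open Vale.Agent.P354CB
open Vale.Agent.P354I (X)
open Vale.Agent.P354XJ (inv_co co_inv co_mem inv_mem on_nhds inv_cont co_cont)

theorem key0 (Z : L0) (a0 : KA0) (a1 : KA1) (a2 : KA2) (kt : KT) (kt2 : KT2) (kh : KH) (kj : KJ)
    (ks : KS) : KEY0 := by
  intro M N S S' U ψ φ P p p' hp pU pP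
  have hM := P.gM.st
  have hN := P.gN.st
  have L := Z.l1
  have G := Z.l2.g1 M S P.gM.toGH0
  have O := Z.l2.g2 M S P.gM.toGH0
  have lm : ∀ x ∈ U, LM ψ x := fun x hx => (P.lm x hx).1
  have pF : p ∈ Fu M S :=
    ((G.tri p).resolve_left fun k => pU (a0 _ _ _ _ _ _ _ P p p' hp k)).resolve_right pP
  obtain ⟨q, q', hq, qU, qF, mn⟩ := a1 _ _ _ _ _ _ _ P p p' hp pU pF
  have lim := a2 _ _ _ _ _ _ _ P q q' hq qF
  obtain ⟨e, he⟩ := M.cover q
  replace he : On e q := he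
  obtain ⟨e', he'⟩ := N.cover q'
  replace he' : On e' q' := he'
  obtain ⟨r', L', c', n'⟩ := L.nb N hN e' _ (co_mem he')
  have ev : ∀ᶠ x in 𝓝 q, x ∈ Fu M S ∧
      (x ∈ U → On e' (ψ x) ∧ co e' (ψ x) ∈ closedBall (co e' q') r') :=
    Eventually.and ((L.opFu hM S).mem_nhds qF) (eventually_nhdsWithin_iff.1 (lim.eventually
      ((on_nhds he').and ((co_cont he').eventually (closedBall_mem_nhds _ n'.r0)))))
  obtain ⟨V, V1, Vo, qV⟩ := eventually_nhds_iff.1 ev
  have nP : ∀ w ∈ V, w ∉ Pa M S := fun w k => L.fu_pa hM G (V1 w k).1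
  obtain ⟨r0, L0, c0, n0⟩ := L.nb M hM e _ (co_mem he)
  obtain ⟨r1, r1p, r1V⟩ := nhds_basis_closedBall.mem_iff.1
    (inv_cont (co_mem he) (Vo.mem_nhds ((inv_co he).symm ▸ qV)))
  have n := n0.mono (lt_min r1p n0.r0) (min_le_right _ _)
  have bV : ∀ z ∈ closedBall (co e q) (min r1 r0), inv e z ∈ V := fun z hz =>
    r1V (closedBall_subset_closedBall (min_le_left _ _) hz)
  generalize min r1 r0 = r at n bV
  obtain ⟨z, zb, zW, f, f1, f2, f3, f4⟩ := kt M hM e _ r _ _ _ n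
    (closedBall (co e q) r ∩ (fun z => (inv e z, q)) ⁻¹' {x | x.1 ∉ Pa M S ∧ Le M x.1 x.2})
    (tgt e ∩ inv e ⁻¹' U)
    (ContinuousOn.preimage_isClosed_of_isClosed
      (fun z hz => ((inv_cont (n.sub hz)).prodMk continuousAt_const).continuousWithinAt)
      isClosed_closedBall O.cl)
    ((M.toE e).isOpen_inter_preimage_symm P.hU.op)
    ⟨mem_closedBall_self n.r0.le, nP _ (bV _ (mem_closedBall_self n.r0.le)), by
      simpa only [inv_co he] using Le.rfl⟩
    (fun k => qU (inv_co he ▸ k.2))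
    (fun z k b ne => ⟨n.sub b, mn _ k.2.2 k.2.1 fun m => ne (by rw [← m, co_inv (n.sub b)])⟩)
    (fun z k b a h1 h2 => by
      have t : Tendsto (fun s : ℝ => z - s • a) (𝓝[>] 0) (𝓝 z) :=
        tendsto_nhdsWithin_of_tendsto_nhds (Continuous.tendsto' (by fun_prop) _ _ (by simp))
      filter_upwards [L.b.ray hM (n.sub k.1) h1 h2, t.eventually (isOpen_ball.mem_nhds b)]
        with s s1 s2
      exact ⟨ball_subset_closedBall s2, nP _ (bV _ (ball_subset_closedBall s2)),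
        (L.le hM s1.1).trans k.2.2⟩)
  have zt := n.sub (ball_subset_closedBall zb)
  have zV := Vo.mem_nhds (bV z (ball_subset_closedBall zb))
  obtain ⟨y, y0⟩ := exists_ne (0 : X)
  obtain ⟨J, J1, rfl, J3, J4⟩ := kt2 M hM e z zt f f1 f3 y
  have tJ : Tendsto J (𝓝[≠] y) (𝓝 (J y)) := J1.continuous.continuousAt.mono_left nhdsWithin_le_nhds
  have tI : Tendsto (fun x => inv e (J x)) (𝓝[≠] y) (𝓝 (inv e (J y))) := (inv_cont zt).tendsto.comp tJ
  have JU : ∀ᶠ x in 𝓝[≠] y, inv e (J x) ∈ U := by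
    filter_upwards [tJ.eventually f4, J4] with x h k using (h k).2
  obtain ⟨C, hC⟩ := kj M N hM hN U ψ P.hU.op lm e' _ _ _ _ _ n' _ (mem_closure_of_tendsto tI JU) V zV
    (fun x a b => (V1 x b).2 a) (fun x a w b l => P.hU.dn x a w l (nP w b)) e (inv_mem zt)
  rw [co_inv zt] at hC
  obtain ⟨χ, χ1, χ2⟩ := ks M N hM hN U ψ P.hU.op lm e e' J y _ C y0 J1 zt J3
    (isCompact_closedBall _ _) n'.sub (by
      filter_upwards [JU, tI.eventually zV, tJ.eventually hC] with x a b c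
      exact ⟨a, ((V1 _ b).2 a).1, ((V1 _ b).2 a).2, c a⟩)
  obtain ⟨D, DV, Do, zD, Dc, Dd⟩ := kh M hM e _ zt f f1 f2 f3 U (f4.mono fun x h k => (h k).2)
    _ (inter_mem zV χ1) fun x a w b l => P.hU.dn x a w l (nP w b.1)
  have DF : D ⊆ Fu M S := fun x k => (V1 x (DV k).1).1
  obtain ⟨x, x1, x2, x3⟩ := ((tI.eventually (Do.mem_nhds zD)).and (JU.and χ2)).exists
  refine ⟨D, χ, Do, ⟨P.hU.op.union Do, ?_, ?_⟩, DF, fun k => zW ⟨zt, k zD⟩, fun x k => (DV k).2,
    Z.k2.rig hM hN (Do.inter P.hU.op) (fun x k => ⟨(DV k.1).2, lm x k.2⟩) Subset.rfl Dc ⟨x1, x2⟩ x3⟩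
  · rintro x (k | k) w l m
    · exact .inl (P.hU.dn x k w l m)
    · rcases Dd x k w l with h | h | ⟨u, h, l'⟩
      exacts [.inr h, .inl h, .inl (P.hU.dn u h w l' m)]
  · rintro x (k | k) w l m
    · exact .inl (P.hU.up x k w l m)
    · exact (m (L.fu_up hM (DF k) l)).elim

end Vale.Agent.P354CB19
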