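import Vale.Agent.P354CB.Ez

/-!
The push up lemma: limits of timelike related pairs in a small ball are causally related.
-/

open Set Filter Topology Metric

namespace Vale.Agent.P354CB19

open Vale.Agent.P354n
open Vale.Agent.P354CB

variable {M : Spc} {e : M.Chart} {p T : R4} {r L c : ℝ}

/-- The tilted velocity is timelike and future directed at a nearby point. -/
theorem tilt (h : St M) (n : NB e p r L c T) {x y a : R4} {s : ℝ} (hx : x ∈ closedBall p r)
    (hy : y ∈ closedBall p r) (h1 : M.g e x a a < 0) (h2 : M.g e x a (M.X e x) < 0) (hs : 0 ≤ s)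
    (k : L * ‖y - x‖ * ‖a‖ ≤ c * s) :
    M.g e y (a + s • T) (a + s • T) < 0 ∧ M.g e y (a + s • T) (M.X e y) < 0 := by
  have l := h.lor e
  have my := n.sub hy
  have lin := l.met.lin y my
  have sy := l.met.symm y my
  have a0 : 0 < ‖a‖ := norm_pos_iff.2 fun k => by
    rw [k, (l.met.lin x (n.sub hx) 0).map_zero] at h1
    exact lt_irrefl _ h1
  have c1 := n.cone x hx y hy a h1.le h2.le
  have l1 := (abs_le.1 (n.lip y hy x hx a a)).2
  have t1 := n.tl y hy
  have ex : ∀ b, M.g e y (a + s • T) b = M.g e y a b + s * M.g e y T b := fun b => by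
    rw [sy, (lin b).map_add, (lin b).map_smul, sy b, sy b, smul_eq_mul]
  have ca := mul_pos n.c0 a0
  have q1 : M.g e y (a + s • T) (a + s • T) < 0 := by
    rw [ex, (lin a).map_add, (lin T).map_add, (lin a).map_smul, (lin T).map_smul, sy T a,
      smul_eq_mul, smul_eq_mul]
    have e1 := mul_le_mul_of_nonneg_right k a0.le
    have e2 := mul_le_mul_of_nonneg_left c1 hs
    have e3 := mul_nonneg (mul_nonneg hs hs) (neg_pos.2 t1.1).le
    have e4 := mul_nonneg hs ca.le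
    nlinarith
  refine ⟨q1, P354YC.cone l my t1.1 q1 ?_ (l.tl y my).le (sy _ _ ▸ t1.2)⟩
  rw [ex]
  have e3 := mul_nonneg hs (neg_pos.2 t1.1).le
  nlinarith

/-- A curve in the small ball can be moved so that it starts at a nearby point. -/
theorem push (B : B0) (h : St M) (n : NB e p r L c T) : ∃ E, 0 < E ∧ ∀ u : ℝ → M.pt,
    Cv M (Icc 0 1) u → (∀ t ∈ Icc (0 : ℝ) 1, On e (u t) ∧ co e (u t) ∈ ball p (r / 2)) →
    ∀ v : R4, ‖v‖ * E ≤ r / 2 → ∃ y, ‖y - co e (u 1)‖ ≤ ‖v‖ * E ∧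
      LL M (inv e (co e (u 0) + v)) (inv e y) := by
  have l := h.lor e
  have mp : p ∈ closedBall p r := mem_closedBall_self n.r0.le
  let θ : R4 →L[ℝ] ℝ := -LinearMap.toContinuousLinearMap ((l.met.lin p (n.sub mp) T).mk' _)
  have hθ : ∀ a, θ a = -M.g e p a T := fun a => by
    rw [l.met.symm p (n.sub mp)]
    rfl
  set K := L * (1 + ‖T‖) / c ^ 2 with hK
  have c0 := n.c0
  have K0 : 0 ≤ K := div_nonneg (mul_nonneg n.L0 (by positivity)) (by positivity)
  refine ⟨1 + Real.exp (K * (‖θ‖ * r)) * ‖T‖, by positivity, fun u hu hV v hv => ?_⟩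
  have ud := uniqueDiffOn_Icc (zero_lt_one' ℝ)
  obtain ⟨x', k1, k2⟩ := B.vel hu ud fun t ht => (hV t ht).1
  set x : ℝ → R4 := fun s => co e (u s) with hx
  have mx : ∀ t ∈ Icc (0 : ℝ) 1, x t ∈ closedBall p r := fun t ht =>
    ball_subset_closedBall (ball_subset_ball (by linarith [n.r0]) (hV t ht).2)
  have th : ∀ t ∈ Icc (0 : ℝ) 1, c * ‖x' t‖ ≤ θ (x' t) := fun t ht =>
    hθ _ ▸ n.cone _ (mx t ht) p mp _ (k2 t ht).2.1.le (k2 t ht).2.2.le
  let f : ℝ → ℝ := fun t => θ (x t - x 0)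
  have df : ∀ t ∈ Icc (0 : ℝ) 1, HasDerivWithinAt f (θ (x' t)) (Icc 0 1) t := fun t ht =>
    θ.hasFDerivAt.comp_hasDerivWithinAt t ((k2 t ht).1.sub_const _)
  have cf : ContinuousOn f (Icc 0 1) := fun t ht => (df t ht).continuousWithinAt
  have f0 : ∀ t ∈ Icc (0 : ℝ) 1, 0 ≤ f t := fun t ht => by
    have := monotoneOn_of_hasDerivWithinAt_nonneg (convex_Icc (0 : ℝ) 1) cf
      (fun s hs => (df s (interior_subset hs)).mono interior_subset)
      (fun s hs => (mul_nonneg c0.le (norm_nonneg _)).trans (th s (interior_subset hs)))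
      (left_mem_Icc.2 zero_le_one) ht ht.1
    simpa [f] using this
  have f1 : ∀ t ∈ Icc (0 : ℝ) 1, f t ≤ ‖θ‖ * r := fun t ht => by
    refine (le_abs_self _).trans ((θ.le_opNorm _).trans (mul_le_mul_of_nonneg_left ?_ (norm_nonneg _)))
    have a1 := mem_ball.1 (hV t ht).2
    have a2 := mem_ball.1 (hV 0 (left_mem_Icc.2 zero_le_one)).2
    rw [← dist_eq_norm]
    linarith [dist_triangle_right (x t) (x 0) p]
  let w : ℝ → ℝ := fun t => ‖v‖ * (Real.exp (K * f t) - 1)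
  let w' : ℝ → ℝ := fun t => ‖v‖ * (Real.exp (K * f t) * (K * θ (x' t)))
  have dw : ∀ t ∈ Icc (0 : ℝ) 1, HasDerivWithinAt w (w' t) (Icc 0 1) t := fun t ht =>
    (((df t ht).const_mul K).exp.sub_const 1).const_mul _
  have e1 : ∀ t ∈ Icc (0 : ℝ) 1, 1 ≤ Real.exp (K * f t) := fun t ht =>
    Real.one_le_exp (mul_nonneg K0 (f0 t ht))
  have nb : ∀ t ∈ Icc (0 : ℝ) 1, ‖v + w t • T‖ ≤ ‖v‖ + ‖v‖ * (Real.exp (K * f t) - 1) * ‖T‖ :=
    fun t ht => by
      refine (norm_add_le _ _).trans ?_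
      rw [norm_smul, Real.norm_of_nonneg (mul_nonneg (norm_nonneg _) (sub_nonneg.2 (e1 t ht)))]
  have nE : ∀ t ∈ Icc (0 : ℝ) 1, ‖v + w t • T‖ ≤ ‖v‖ * (1 + Real.exp (K * (‖θ‖ * r)) * ‖T‖) :=
    fun t ht => by
      refine (nb t ht).trans ?_
      have a1 := Real.exp_le_exp.2 (mul_le_mul_of_nonneg_left (f1 t ht) K0)
      have a2 := mul_le_mul_of_nonneg_right
        (show Real.exp (K * f t) - 1 ≤ Real.exp (K * (‖θ‖ * r)) by linarith)
        (mul_nonneg (norm_nonneg v) (norm_nonneg T))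
      nlinarith
  let y : ℝ → R4 := fun t => x t + (v + w t • T)
  have my : ∀ t ∈ Icc (0 : ℝ) 1, y t ∈ closedBall p r := fun t ht => by
    have a1 := mem_ball.1 (hV t ht).2
    have a2 : dist (y t) (x t) ≤ r / 2 := by
      rw [dist_eq_norm, add_sub_cancel_left]
      exact (nE t ht).trans hv
    exact mem_closedBall.2 (by linarith [dist_triangle (y t) (x t) p])
  have cv := B.chart h (e := e) (x := y) (x' := fun t => x' t + w' t • T) ud
    (k1.add ((continuousOn_const.mul ((continuousOn_const.mul cf).rexp.mul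
      (continuousOn_const.mul (θ.continuous.comp_continuousOn k1)))).smul continuousOn_const))
    fun t ht => ⟨n.sub (my t ht), (k2 t ht).1.add (((dw t ht).smul_const T).const_add v), by
      have a0 := norm_nonneg (x' t)
      have a1 := th t ht
      have a2 := e1 t ht
      have a3 : 0 ≤ ‖v‖ * Real.exp (K * f t) := by positivity
      refine tilt h n (mx t ht) (my t ht) (k2 t ht).2.1 (k2 t ht).2.2
        (mul_nonneg (norm_nonneg _) (mul_nonneg (by positivity)
          (mul_nonneg K0 ((mul_nonneg c0.le a0).trans a1)))) ?_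
      have a4 : ‖y t - x t‖ ≤ ‖v‖ * Real.exp (K * f t) * (1 + ‖T‖) := by
        rw [add_sub_cancel_left]
        refine (nb t ht).trans ?_
        have := mul_le_mul_of_nonneg_left a2 (norm_nonneg v)
        have := mul_nonneg (norm_nonneg v) (norm_nonneg T)
        nlinarith
      calc L * ‖y t - x t‖ * ‖x' t‖
          ≤ L * (‖v‖ * Real.exp (K * f t) * (1 + ‖T‖)) * ‖x' t‖ := by gcongr; exact n.L0
        _ = c * (‖v‖ * Real.exp (K * f t) * K * (c * ‖x' t‖)) := by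
          rw [hK]
          field_simp
        _ ≤ c * (‖v‖ * Real.exp (K * f t) * K * θ (x' t)) := by gcongr
        _ = c * w' t := by simp only [w']; ring⟩
  refine ⟨y 1, ?_, _, cv, ?_, rfl⟩
  · rw [show y 1 - co e (u 1) = v + w 1 • T from add_sub_cancel_left _ _]
    exact nE 1 (right_mem_Icc.2 zero_le_one)
  · simp [y, w, f, x]

/-- Pairs joined by a future curve in V. -/
def Jn (M : Spc) (V : Set M.pt) : Set (M.pt × M.pt) :=
  {q | ∃ c, Cv M (Icc 0 1) c ∧ MapsTo c (Icc 0 1) V ∧ c 0 = q.1 ∧ c 1 = q.2}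

theorem half (B : B0) (C : CORNER) (O : OPEN) (N : NBALL) (h : St M) (x : M.pt) :
    ∃ V ∈ 𝓝 x, ∀ a ∈ V, ∀ b ∈ V, (a, b) ∈ closure (Jn M V) → ∀ z, LL M b z → LL M a z := by
  obtain ⟨e, he⟩ := M.cover x
  replace he : On e x := he
  obtain ⟨r, L, c, n⟩ := N M h e _ (P354XJ.co_mem he)
  obtain ⟨E, E0, k⟩ := push B h n
  refine ⟨{q | On e q ∧ co e q ∈ ball (co e x) (r / 2)}, (P354XJ.on_nhds he).and
    ((P354XJ.co_cont he).preimage_mem_nhds (ball_mem_nhds _ (half_pos n.r0))),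
    fun a ha b hb hab z hz => ?_⟩
  have o1 : {y | LL M (inv e y) z} ∈ 𝓝 (co e b) :=
    (P354XJ.inv_cont (P354XJ.co_mem hb.1)).preimage_mem_nhds
      ((open_past B O h z).mem_nhds (by rwa [P354XJ.inv_co hb.1]))
  obtain ⟨ε, ε0, hε⟩ := Metric.mem_nhds_iff.1 o1
  have m0 : 0 < min (ε / 2) (r / 2) := lt_min (half_pos ε0) (half_pos n.r0)
  have o2 : {q : M.pt × M.pt | co e q.1 ∈ ball (co e a) (min (ε / 2) (r / 2) / E) ∧
      co e q.2 ∈ ball (co e b) (ε / 2)} ∈ 𝓝 (a, b) :=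
    Filter.Eventually.and
      (((P354XJ.co_cont ha.1).comp_of_eq continuousAt_fst rfl).preimage_mem_nhds
        (ball_mem_nhds _ (div_pos m0 E0)))
      (((P354XJ.co_cont hb.1).comp_of_eq continuousAt_snd rfl).preimage_mem_nhds
        (ball_mem_nhds _ (half_pos ε0)))
  obtain ⟨q, ⟨q1, q2⟩, u, u1, u2, u3, u4⟩ := mem_closure_iff_nhds.1 hab _ o2
  rw [← u3, mem_ball, dist_comm, dist_eq_norm, lt_div_iff₀ E0] at q1
  rw [← u4, mem_ball] at q2
  obtain ⟨y, y1, y2⟩ := k u u1 u2 (co e a - co e (u 0)) (q1.le.trans (min_le_right _ _))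
  rw [add_sub_cancel, P354XJ.inv_co ha.1] at y2
  refine ll_trans B C h y2 (hε (mem_ball.2 ?_))
  rw [← dist_eq_norm] at y1
  linarith [dist_triangle y (co e (u 1)) (co e b), min_le_left (ε / 2) (r / 2)]

theorem pu (B : B0) (C : CORNER) (O : OPEN) (N : NBALL) : PU := by
  intro M h x
  obtain ⟨V, V1, V2⟩ := half B C O N h x
  obtain ⟨W, W1, W2⟩ := half B C O N (B.st_rev h) x
  refine ⟨V ∩ W, inter_mem V1 W1, fun a ha b hb hab => ?_⟩
  replace hab : (a, b) ∈ closure (Jn M (V ∩ W)) := hab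
  have s1 : Jn M (V ∩ W) ⊆ Jn M V := fun q ⟨u, u1, u2, u3⟩ =>
    ⟨u, u1, u2.mono_right inter_subset_left, u3⟩
  have s2 : MapsTo Prod.swap (Jn M (V ∩ W)) (Jn (rev M) W) := by
    rintro q ⟨u, u1, u2, u3, u4⟩
    refine ⟨fun t => u (1 - t), (B.cv_rev h 1).2 ?_, fun t ht => (u2 ?_).2, by simpa using u4,
      by simpa using u3⟩
    · simpa using u1
    · exact ⟨by linarith [ht.2], by linarith [ht.1]⟩
  exact ⟨V2 a ha.1 b hb.1 (closure_mono s1 hab), fun w hw => (B.ll_rev h).1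
    (W2 b hb.2 a ha.2 (s2.closure continuous_swap hab) w ((B.ll_rev h).2 hw))⟩

end Vale.Agent.P354CB19
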